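import Vale.Agent.P144U.Defs
import Vale.Agent.P144D.B.Pair

/-!
The pair of a homogeneous solution, without connectedness.
-/

namespace Vale.Agent.P144Z

open Finset Matrix

namespace ExMa

open B2a

/-- Functions that do not change between adjacent outer faces take each of their values on every
larger contour. -/
def Esk (I : ℤ × ℤ → Prop) (s ρ : ℕ) : Prop :=
  ∀ g : ℤ × ℤ → ℝ, (∀ v e, zd v 0 ≤ ρ → zd (v + e) 0 ≤ ρ → ¬ I v → ¬ I (v + e) →
    e = (1, 0) ∨ e = (0, 1) → g (v + e) = g v) →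
    ∀ σ, σ ≤ s → ∀ v, zd v 0 ≤ σ → ¬ I v → ∃ x, zd x 0 = σ ∧ g x = g v

variable {s ρ : ℕ} {P b : ℤ × ℤ → Fin 2 → ℝ} {c : ℤ × ℤ → Fin 4 → ℝ} {Hv Hf : ℤ × ℤ → ℝ}
  {I out : ℤ × ℤ → Prop} {pr : ℤ × ℤ → Fin 4 → Prop}

open Classical in
theorem pair_plus (h : Dat ρ P b c Hv Hf) (hs : s + 2 ≤ ρ) (hc : Esk I s ρ)
    (P0 : ∀ v, P v 0 = if I v ∨ I (v - (0, 1)) then 1 else 0)
    (P1 : ∀ v, P v 1 = if I v ∨ I (v - (1, 0)) then 1 else 0)
    (hpr : ∀ v a, pr v a ↔ I (v - cn (a - 1)) ∨ I (v - cn a)) (hout : ∀ v, out v ↔ ¬ I v) :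
    ∃ u w, IsPairM s u w pr out ∧ (∀ v k, zd v 0 ≤ s → u v - w (v - cn k) = c v k ^ 2) ∧
      ∀ v, zd v 0 + 1 ≤ s → ∑ k, c v k ^ 2 ≤ 7 * ∑ a, |GM u w pr v a| := by
  have hV : ∀ v a, PV P v a = if pr v a then 1 else 0 := by
    intro v a
    obtain ⟨i, j, rfl⟩ := shift v
    rw [hpr]
    match a with
    | 0 => simp [PV, P0, cn, or_comm]
    | 1 => simp [PV, P1, cn]
    | 2 => simp [PV, P0, cn]
    | 3 => simp [PV, P1, cn, or_comm]
  have hF : ∀ f a, I f → PF P f a = 1 := by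
    intro f a hf
    fin_cases a <;> simp [PF, P0, P1, hf]
  have hκ := hc Hf (by
    rintro v e h1 h2 h3 h4 (rfl | rfl)
    · have := ((h.vert h2 1).2 (by
        rw [hV, if_neg]; rw [hpr]; simp [cn, h3, h4, Prod.mk_zero_zero])).1
      simpa [cn, Prod.mk_zero_zero] using this
    · have := ((h.vert h2 0).2 (by
        rw [hV, if_neg]; rw [hpr]; simp [cn, h3, h4, Prod.mk_zero_zero])).1
      simpa [cn, Prod.mk_zero_zero] using this.symm)
  have key : ∀ v, zd v 0 ≤ s → ∀ a, GM Hv Hf pr v a = FQ 1 (c v) a := by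
    intro v hv a
    have k := h.vert (v := v) (by omega) a
    rw [hV] at k
    unfold GM
    split_ifs with hp
    · exact k.1 (if_pos hp)
    · rw [← (k.2 (if_neg hp)).2, ← h.pot v a (by omega)]
  have dif : ∀ v k, zd v 0 ≤ s → Hv v - Hf (v - cn k) = c v k ^ 2 := fun v k hv =>
    h.pot v k (by omega)
  refine ⟨Hv, Hf, ⟨?_, ?_, ?_, ?_, ?_, ?_⟩, dif, ?_⟩
  · intro v k hv
    linarith [dif v k hv, sq_nonneg (c v k)]
  · exact fun σ hσ v hv ho => hκ σ hσ v hv ((hout v).1 ho)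
  · intro v a hp
    rw [hout, hout]
    exact not_or.1 fun k => hp ((hpr _ _).2 k)
  · intro v a
    have e1 : v + st4 a - cn (a + 2 - 1) = v - cn a := by
      rw [show a + 2 - 1 = a + 1 by fin_cases a <;> rfl, ← st_cn]; abel
    have e2 : v + st4 a - cn (a + 2) = v - cn (a - 1) := by rw [← st_cn']; abel
    rw [hpr, hpr, e1, e2, or_comm]
  · intro v hv
    simp only [key v (by omega)]
    exact (Dat.vest c v).1
  · intro f hf ho
    have hI : I f := by rwa [hout, not_not] at ho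
    have k := (h.fest (f := f) (by omega)).1
    have e : ∀ a, Hf (f + st4 (a + 2)) - Hf f =
        -FQ (PF b f) (fun k => c (f + cn k) k) a := fun a => by
      rw [← (h.face (f := f) (by omega) a).1 (hF f a hI), st_st, ← sub_eq_add_neg]; ring
    rw [← sum_rot]
    simp only [e, sum_neg_distrib]
    linarith
  · intro v hv
    simp only [key v (by omega)]
    exact (Dat.vest c v).2

open Classical in
theorem pair_free (h : Dat ρ P b c Hv Hf) (hs : s + 2 ≤ ρ) (hc : Esk I s ρ)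
    (P0 : ∀ v, P v 0 = if I v ∧ I (v - (0, 1)) then 1 else tT)
    (P1 : ∀ v, P v 1 = if I v ∧ I (v - (1, 0)) then 1 else tT)
    (hpr : ∀ v a, pr v a ↔ I (-v) ∧ I (-(v + st4 a))) (hout : ∀ v, out v ↔ ∃ k, ¬ I (-(v + cn k))) :
    ∃ u w, IsPairM s u w pr out ∧
      (∀ v k, zd v 0 ≤ s → u v - w (v - cn k) = c (-(v - cn k)) k ^ 2) ∧
      ∀ v, zd v 0 + 1 ≤ s → ∑ k, c (-(v - cn k)) k ^ 2 ≤ 7 * ∑ a, |GM u w pr v a| := by
  have hF : ∀ f a, PF P f a = if I f ∧ I (f - st4 a) then 1 else tT := by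
    intro f a
    obtain ⟨i, j, rfl⟩ := shift f
    match a with
    | 0 => simp [PF, P1, st4]
    | 1 => simp [PF, P0, st4]
    | 2 => simp [PF, P1, st4, and_comm]
    | 3 => simp [PF, P0, st4, and_comm]
  have hV : ∀ v a, (∀ k, I (v - cn k)) → PV P v a = 1 := by
    intro v a hv
    obtain ⟨i, j, rfl⟩ := shift v
    have h0 := hv 0
    have h1 := hv 1
    have h2 := hv 2
    have h3 := hv 3
    simp [cn] at h0 h1 h2 h3
    fin_cases a <;> simp [PV, P0, P1, h0, h1, h2, h3]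
  have ext : ∀ f, zd f 0 ≤ ρ → ¬ I f → ∀ k, Hv (f + cn k) = Hv f := by
    intro f hf hI k
    have e := fun a => ((h.face hf a).2 (by rw [hF, if_neg fun k => hI k.1])).1
    have e0 : Hv (f + cn 0) = Hv f := by simp [show cn 0 = 0 from rfl]
    match k with
    | 0 => exact e0
    | 1 => exact (e 1).symm.trans e0
    | 2 => exact ((e 1).trans (e 2)).symm.trans e0
    | 3 => exact (e 0).trans e0
  have hκ := hc Hv (by
    rintro v e h1 _ h3 _ (rfl | rfl)
    · exact ext v h1 h3 1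
    · exact ext v h1 h3 3)
  have esc : ∀ σ, σ ≤ s → ∀ v, zd v 0 ≤ σ → out v → ∃ x, zd x 0 = σ ∧ -Hv (-x) = -Hv (-v) := by
    intro σ hσ v hv ho
    rcases hv.eq_or_lt with e | e
    · exact ⟨v, e, rfl⟩
    obtain ⟨k, hk⟩ := (hout v).1 ho
    have hz : zd (-(v + cn k)) 0 ≤ σ := by
      rw [zd_neg]
      exact (zd_cn le_rfl k).2.trans e
    have := ext _ (by omega) hk k
    rw [show -(v + cn k) + cn k = -v by abel] at this
    obtain ⟨x, h1, h2⟩ := hκ σ hσ _ hz hk
    exact ⟨-x, by rwa [zd_neg], by rw [neg_neg, h2, this]⟩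
  have rem : ∀ v a, ¬ pr v a → out (v - cn (a - 1)) ∧ out (v - cn a) := by
    intro v a hp
    rw [hpr, not_and_or] at hp
    rw [hout, hout]
    rcases hp with hp | hp
    · exact ⟨⟨a - 1, by rwa [sub_add_cancel]⟩, a, by rwa [sub_add_cancel]⟩
    · exact ⟨⟨a + 2, by rwa [← st_cn', show ∀ x y : ℤ × ℤ, v - x + (y + x) = v + y from
        fun x y => by abel]⟩, a + 1, by rwa [← st_cn,
        show ∀ x y : ℤ × ℤ, v - x + (y + x) = v + y from fun x y => by abel]⟩
  have en : ∀ v x : ℤ × ℤ, -(v - x) = -v + x := fun v x => by abel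
  have dif : ∀ v k, zd v 0 ≤ s →
      -Hf (-v) - -Hv (-(v - cn k)) = c (-(v - cn k)) k ^ 2 := fun v k hv => by
    rw [← h.pot _ k (by rw [zd_neg]; have := (zd_cn hv k).1; omega), en, add_sub_cancel_right]
    ring
  have key : ∀ v, zd v 0 ≤ s → ∀ a, GM (fun v => -Hf (-v)) (fun v => -Hv (-v)) pr v a =
      FQ (PF b (-v)) (fun k => c (-v + cn k) k) a := by
    intro v hv a
    have k := h.face (f := -v) (by rw [zd_neg]; omega) a
    rw [hF, ← neg_add'] at k
    unfold GM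
    split_ifs with hp
    · rw [← k.1 (if_pos ((hpr _ _).1 hp))]; ring
    · rw [← (k.2 (if_neg fun e => hp ((hpr _ _).2 e))).2, ← en, ← dif v a hv]
  refine ⟨fun v => -Hf (-v), fun v => -Hv (-v), ⟨?_, esc, rem, ?_, ?_, ?_⟩, dif, ?_⟩
  · intro v k hv
    linarith [dif v k hv, sq_nonneg (c (-(v - cn k)) k)]
  · intro v a
    rw [hpr, hpr, st_st, add_neg_cancel_right, and_comm]
  · intro v hv
    simp only [key v (by omega)]
    exact (h.fest (by rw [zd_neg]; omega)).1
  · intro v hv ho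
    have hI : ∀ k, I (-v - cn k) := fun k => by
      by_contra hk
      exact ho ((hout v).2 ⟨k, by rwa [neg_add']⟩)
    have k := (Dat.vest c (-v)).1
    have e : ∀ a, -Hv (-(v + st4 (a + 2))) - -Hv (-v) = -FQ 1 (c (-v)) a := fun a => by
      rw [← (h.vert (v := -v) (by rw [zd_neg]; omega) a).1 (hV _ a hI), st_st, ← sub_eq_add_neg, en]
      ring
    rw [← sum_rot]
    simp only [e, sum_neg_distrib]
    linarith
  · intro v hv
    simp only [key v (by omega), en]
    exact (h.fest (by rw [zd_neg]; omega)).2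

theorem esk {M : ℕ} [NeZero M] {I : Finset (Tor M)} {z : Tor M} {s ρ r : ℕ} (hs : s ≤ ρ)
    (hM : 2 * ρ + 9 ≤ M) (h : Esc I r) (hr : 2 * s ≤ r) :
    Esk (fun v => z + prj M v ∈ I) s ρ := by
  intro g hg σ hσ v hv hI
  have step : ∀ (u : Tor M) i, tdist u z ≤ ρ → tdist (u + uv M i) z ≤ ρ → u ∉ I → u + uv M i ∉ I →
      g (lft (u + uv M i - z)) = g (lft (u - z)) := by
    intro u i h1 h2 h3 h4
    have e1 : u + uv M i = z + prj M (lft (u - z) + G.ez i) := by
      rw [G.prj_add, ← add_assoc, G.add_prj_lft, G.uv_eq]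
    have b : zd (lft (u - z) + G.ez i) 0 ≤ ρ + 1 := by
      rw [← zd_lft, zd_le] at h1
      rw [zd_le]
      fin_cases i <;> simp [G.ez] <;> omega
    have e2 : lft (u + uv M i - z) = lft (u - z) + G.ez i := by
      rw [e1]; exact lft_eq z b (by omega)
    rw [e2]
    refine hg _ _ (by rwa [zd_lft]) (by rwa [← e2, zd_lft])
      (by beta_reduce; rwa [G.add_prj_lft]) (by beta_reduce; rwa [← e1]) ?_
    fin_cases i <;> simp [G.ez]
  obtain ⟨y, h1, h2⟩ := h _ hI
  have h3 := td_le (M := M) z hv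
  have key : (∃ x, zd x 0 = σ ∧ g x = g v) ∨ (tdist y z < σ ∧ g (lft (y - z)) = g v) := by
    have alt : ∀ y, tdist y z ≤ σ → g (lft (y - z)) = g v →
        (∃ x, zd x 0 = σ ∧ g x = g v) ∨ (tdist y z < σ ∧ g (lft (y - z)) = g v) := fun y a1 a2 =>
      a1.eq_or_lt.imp (fun e => ⟨_, by rwa [zd_lft], a2⟩) fun e => ⟨e, a2⟩
    clear h1
    induction h2 with
    | refl => exact alt _ h3 (by rw [lft_eq z hv (by omega)])
    | @tail y y' _ hb ih =>
      refine ih.elim Or.inl fun ih => ?_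
      obtain ⟨k3, k4, i, rfl | rfl⟩ := hb
      · have a1 := (tdist_triangle _ _ z).trans (add_le_add (tdist_uv y i) le_rfl)
        exact alt _ (by omega) (by rw [step _ i (by omega) (by omega) k3 k4, ih.2])
      · have a1 := (tdist_triangle _ _ z).trans
          (add_le_add ((tdist_comm _ _).trans_le (tdist_uv y' i)) le_rfl)
        exact alt _ (by omega) (by rw [← step _ i (by omega) (by omega) k4 k3, ih.2])
  refine key.resolve_right fun k => ?_
  have a1 := tdist_triangle y z (z + prj M v)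
  rw [tdist_comm z] at a1
  omega

end ExMa

open B2a ExMa in
/-- The pair of a homogeneous solution, without connectedness. -/
theorem exM : ExM := by
  refine ⟨7, by norm_num, fun M _ R B hB z s ρ r hs hM hF hc hr φ hφ => ?_⟩
  obtain ⟨Hv, Hf, hd⟩ := dat hB hF hφ
  have hc' := esk (z := z) (s := s) (by omega) hM hc (by omega)
  have e0 : ∀ v, oth (z + prj M v, 0) = z + prj M (v - (0, 1)) := fun v => by
    rw [G.prj_sub, ← G.uv_one, ← add_sub_assoc]; rfl
  have e1 : ∀ v, oth (z + prj M v, 1) = z + prj M (v - (1, 0)) := fun v => by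
    rw [G.prj_sub, ← G.uv_zero, ← add_sub_assoc]; rfl
  have en : ∀ v, z - prj M v = z + prj M (-v) := fun v => by
    rw [← zero_sub v, G.prj_sub, G.prj_zero, zero_sub, sub_eq_add_neg]
  obtain ⟨I, _ | _⟩ := R
  · exact ExMa.pair_plus hd hs hc' (fun v => by simp [Reg.pw, e0]) (fun v => by simp [Reg.pw, e1])
      (fun v a => by simp [Reg.pr]) fun v => by simp [Reg.out]
  · simp only [Reg.vx, if_true, en]
    exact ExMa.pair_free hd hs hc' (fun v => by simp [Reg.pw, e0]) (fun v => by simp [Reg.pw, e1])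
      (fun v a => by simp only [Reg.pr, if_true, en]) fun v => by simp only [Reg.out, if_true, en]

end Vale.Agent.P144Z
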