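import Vale.Agent.P144U.Defs
import Vale.Agent.P144D.B.HomDec

/-!
Decay of the homogeneous solutions when the inner faces are rare.
-/

namespace Vale.Agent.P144Z

open Finset hiding box
open Matrix

namespace ExMa

open HomDec

open Classical in
/-- A site with a present edge touches an inner face. -/
theorem card_pr {M : ℕ} [NeZero M] (R : Reg M) (z : Tor M) {s ρ : ℕ} (hs : s + 1 ≤ ρ)
    (hM : 2 * s < M) : ((box s).filter fun v => ∃ a, R.pr z v a).card ≤
      4 * (R.In.filter fun x => tdist x z ≤ ρ).card := by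
  let F : Fin 4 → ℤ × ℤ → Tor M := fun k v => if R.fr then R.vx z v 0 else
    z + prj M (v - cn k)
  have sub : ((box s).filter fun v => ∃ a, R.pr z v a) ⊆
      univ.biUnion fun k => (box s).filter fun v => F k v ∈ R.In := by
    intro v hv
    obtain ⟨h1, a, h2⟩ := mem_filter.1 hv
    have h3 : ∃ k, F k v ∈ R.In := by
      unfold Reg.pr at h2
      simp only [F, Reg.vx]
      split_ifs at h2 ⊢
      · exact ⟨0, by simpa [cn_zero] using h2.1⟩
      · exact h2.elim (fun h => ⟨_, h⟩) fun h => ⟨_, h⟩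
    obtain ⟨k, h3⟩ := h3
    exact mem_biUnion.2 ⟨k, mem_univ k, mem_filter.2 ⟨h1, h3⟩⟩
  refine (card_le_card sub).trans (card_biUnion_le_card_mul _ _ _ fun k _ => ?_)
  refine card_le_card_of_injOn (F k) (fun v hv => ?_) fun u hu v hv h => ?_
  · obtain ⟨h1, h2⟩ := mem_filter.1 (mem_coe.1 hv)
    refine mem_coe.2 (mem_filter.2 ⟨h2, ?_⟩)
    have h3 := mem_box.1 h1
    simp only [F]
    split_ifs
    · have := tdist_vx R z v 0
      omega
    · exact B2a.td_le z (by have := zd_sub_cn v k; omega)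
  · have h1 := mem_box.1 (mem_filter.1 (mem_coe.1 hu)).1
    have h2 := mem_box.1 (mem_filter.1 (mem_coe.1 hv)).1
    simp only [F] at h
    split_ifs at h
    · exact vx_inj R z 0 hM h1 h2 h
    · rw [add_right_inj, G.prj_sub, G.prj_sub, sub_left_inj] at h
      exact prj_inj h1 h2 hM h

end ExMa

open HomDec ExMa in
/-- Decay of the homogeneous solutions with a gain when the inner faces are rare. -/
theorem thinU_of (hE : ExM) (hT : ThinP) : ThinU := by
  obtain ⟨C₁, hC₁, H₁⟩ := hE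
  obtain ⟨C₂, hC₂, H₂⟩ := chi_cmp
  obtain ⟨C₃, hC₃, H₃⟩ := hT
  refine ⟨16 * (C₁ * C₂ * C₂ * C₃), ?_, ?_⟩
  · have := one_le_mul_of_one_le_of_one_le (one_le_mul_of_one_le_of_one_le
      (one_le_mul_of_one_le_of_one_le hC₁ hC₂) hC₂) hC₃
    linarith
  intro M _ R B hB z s ρ r θ hs hρ hM hF hc hr hθ hcard φ hφ
  obtain ⟨σ, rfl⟩ : ∃ σ, ρ = σ + 2 + 2 := ⟨ρ - 4, by omega⟩
  obtain ⟨u, w, hp, he, hl⟩ := H₁ M R B hB z σ (σ + 2) r le_rfl (by omega) hF hc (by omega) φ hφ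
  set N := l2sq (ball z (σ + 2 + 2)) φ with hN
  have hN0 : 0 ≤ N := l2sq_nonneg _ _
  have hσ : (4 : ℝ) ≤ σ := by exact_mod_cast (by omega : 4 ≤ σ)
  have hs' : (1 : ℝ) ≤ s := by exact_mod_cast hs
  have hmass : ∑ x ∈ box σ, ∑ k, (u x - w (x - cn k)) ≤ C₂ * N := by
    rw [sum_congr rfl fun x hx => sum_congr rfl fun k _ => he x k (mem_box.1 hx)]
    refine (sum_box_le R z (by omega) (fun y k => chi φ y k ^ 2) fun _ _ => sq_nonneg _).trans ?_
    refine le_trans ?_ (mul_le_mul_of_nonneg_left (l2sq_mono z (by omega : σ + 1 ≤ _) φ)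
      (by linarith))
    rw [l2sq, mul_sum]
    exact sum_le_sum fun y _ => (H₂ M φ y).2
  have h4 := H₃ σ (s + 1) u w _ _ (4 * θ) _ hp (by omega) (by omega) (by positivity) (by
    have h1 := (Nat.cast_le (α := ℝ)).2
      (card_pr R z (s := σ) (ρ := σ + 2 + 2) (by omega) (by omega))
    rw [Nat.cast_mul, Nat.cast_ofNat] at h1
    refine h1.trans ((mul_le_mul_of_nonneg_left hcard (by norm_num)).trans ?_)
    push_cast
    have h2 : ((σ : ℝ) + 2 + 2) ^ 2 ≤ (2 * σ) ^ 2 := by gcongr; linarith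
    nlinarith [mul_le_mul_of_nonneg_left h2 (sq_nonneg θ)]) hmass
  have h1 : l2sq (ball z s) φ ≤ C₂ * ∑ y ∈ ball z s, ∑ k, chi φ y k ^ 2 := by
    rw [l2sq, mul_sum]
    exact sum_le_sum fun y _ => (H₂ M φ y).1
  have h2 := sum_ball_le R z s (fun y k => chi φ y k ^ 2) fun _ _ => sq_nonneg _
  have h3 : ∑ v ∈ box (s + 1), ∑ k, chi φ (R.vx z v k) k ^ 2 ≤
      C₁ * ∑ v ∈ box (s + 1), ∑ a, |GM u w (R.pr z) v a| := by
    rw [mul_sum]
    exact sum_le_sum fun v hv => hl v (by have := mem_box.1 hv; omega)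
  have h5 := h1.trans (mul_le_mul_of_nonneg_left (h2.trans h3) (by linarith))
  have h6 := l2sq_nonneg (ball z s) φ
  push_cast at h4 ⊢
  calc _ ≤ C₂ * (C₁ * ∑ v ∈ box (s + 1), ∑ a, |GM u w (R.pr z) v a|) * (2 * σ) :=
        mul_le_mul h5 (by linarith) (by linarith) (h6.trans h5)
    _ = 2 * C₂ * C₁ * ((∑ v ∈ box (s + 1), ∑ a, |GM u w (R.pr z) v a|) * σ) := by ring
    _ ≤ 2 * C₂ * C₁ * (C₃ * (4 * θ) * (s + 1) * (C₂ * N)) :=
        mul_le_mul_of_nonneg_left h4 (by positivity)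
    _ ≤ 2 * C₂ * C₁ * (C₃ * (4 * θ) * (2 * s) * (C₂ * N)) := by gcongr; linarith
    _ = _ := by ring

end Vale.Agent.P144Z
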